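import Vale.Agent.P269.Cpt.Main
import Vale.Agent.P287Q.G.Vir.Lim

/-!
# Compactness of moduli spaces, continuity of the evaluation maps
-/

set_option linter.unusedSectionVars false

namespace Vale.Agent.P269

open Set Function Topology Filter Module Cv Ch

/-- a sequential criterion for compactness in an orbit space -/
theorem Quo.isCompact_of_seq {A W : Type} [NormedRing A] [NormedAddCommGroup W]
    [SecondCountableTopology W] {act : A → W → W} {Z : Set W} {C : Set (Quo act Z)}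
    (h : ∀ z : ℕ → Quo act Z, (∀ n, z n ∈ C) → ∃ (φ : ℕ → ℕ) (x : ℕ → Z) (x' : Z), StrictMono φ ∧
      (∀ n, Quo.mk act (x n) = z (φ n)) ∧ Quo.mk act x' ∈ C ∧ Tendsto x atTop (𝓝 x')) :
    IsCompact C := by
  have c : Continuous (Quo.mk act : Z → Quo act Z) := continuous_quot_mk
  refine IsLindelof.isCompact (IsSeqCompact.isCountablyCompact fun z hz => ?_) ?_
  · obtain ⟨φ, x, x', h1, h2, h3, h4⟩ := h z hz
    exact ⟨_, h3, φ, h1, ((c.tendsto x').comp h4).congr h2⟩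
  · rw [← image_preimage_eq C (f := Quo.mk act) Quot.mk_surjective]
    exact (HereditarilyLindelofSpace.isLindelof _).image c

variable {S Λ ρ J K ν κ : Type} [Fintype S] [Fintype Λ] [Fintype ρ] [Fintype J]
  [Fintype K] [Fintype ν] [Fintype κ] {F : Fam S Λ ρ J K}

namespace Ch

variable {ι α : Type} [Fintype ι] [DecidableEq ι] {ch : Ch ι J} {l : Filter α}

/-- the values of the fields are continuous -/
theorem tendsto_val {x : α → ch.W ν} {x₀ : ch.W ν} (h0 : ∀ n, Surjective (x₀.Q n))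
    (h : Tendsto x l (𝓝 x₀)) {c : α → V ch.M} {c₀ : V ch.M} (hc : Tendsto c l (𝓝 c₀))
    (h1 : c₀ ∈ crv x₀) {j : J} {y : α → ℂ} {y₀ : ℂ}
    (h2 : ∀ᶠ a in l, c a ∈ crv (x a) ∧ Val (x a) j (c a) (y a)) (h3 : Val x₀ j c₀ y₀) :
    Tendsto y l (𝓝 y₀) := by
  obtain ⟨u₀, a0⟩ := mem_crv.1 h1
  rcases l.eq_or_neBot with rfl | _
  · exact tendsto_bot
  obtain ⟨u, hu⟩ := (h2.mono fun a b => mem_crv.1 b.1).choice
  obtain ⟨u', a1, a2⟩ := exists_tendsto_gr h0 h (z := fun a => (c a, u a)) hu hc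
  obtain rfl := a2 _ a0
  obtain ⟨μ, hμ⟩ := exists_val_one (a := ch.b j) (crv_ne h1)
  have b1 : Tendsto (fun a => val μ (c a)) l (𝓝 1) := hμ ▸
    (((ContinuousLinearMap.apply ℂ ℂ μ).continuous.tendsto _).comp
      ((Base.analyticAt_evL c₀).continuousAt.tendsto.comp hc))
  have b2 : Tendsto (fun a => u a (some j) ((x a).X j μ)) l (𝓝 (u₀ (some j) (x₀.X j μ))) :=
    ((continuous_fst.clm_apply continuous_snd).tendsto _).comp
      ((tendsto_pi_nhds.1 a1.snd_nhds (some j)).prodMk_nhds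
        (((ContinuousLinearMap.apply ℂ _ μ).continuous.tendsto _).comp
          (((W.XL (ch := ch) (ν := ν) j).continuous.tendsto _).comp h)))
  have := b2.div b1 one_ne_zero
  rw [h3 _ a0, hμ, mul_one, div_one] at this
  refine this.congr' ?_
  filter_upwards [hu, h2, b1.eventually_ne one_ne_zero] with a d1 d2 d3
  rw [Pi.div_apply, d2.2 _ d1, mul_div_cancel_right₀ _ d3]

theorem p_mem_crv {x : ch.W ν} (h : x ∈ ch.base ν) (n : ν) : x.p n ∈ crv x := (h.2.2.2.1 n).1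

theorem vl_mem {x : ch.WF ν κ Λ} (h : x ∈ ch.solF ν κ F) (n : Mk ν κ) : vl x n ∈ F.cone :=
  ((mem_solF.1 h).2 _ (p_mem_crv h.1.2.1 n)).2

theorem tendsto_vl {x : α → ch.WF ν κ Λ} {x₀ : ch.WF ν κ Λ} (hx : ∀ᶠ a in l, x a ∈ ch.solF ν κ F)
    (h0 : x₀ ∈ ch.solF ν κ F) (h : Tendsto x l (𝓝 x₀)) (n : Mk ν κ) :
    Tendsto (fun a => vl (x a) n) l (𝓝 (vl x₀ n)) :=
  h.fst_nhds.prodMk_nhds (tendsto_pi_nhds.2 fun j => tendsto_val h0.1.2.1.1 h.snd_nhds
    (((W.pL (ch := ch) n).continuous.tendsto _).comp h.snd_nhds) (p_mem_crv h0.1.2.1 n)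
    (hx.mono fun _ b => ⟨p_mem_crv b.1.2.1 n,
      val_fld (((mem_solF.1 b).2 _ (p_mem_crv b.1.2.1 n)).1 j)⟩)
    (val_fld (((mem_solF.1 h0).2 _ (p_mem_crv h0.1.2.1 n)).1 j)))

/-- the evaluation at a marked point is continuous on the solutions -/
theorem continuousOn_vl (n : Mk ν κ) : ContinuousOn (vl · n) (ch.solF ν κ F) := fun _ h =>
  tendsto_vl self_mem_nhdsWithin h nhdsWithin_le_nhds n

/-- the values at the two branches of the persistent nodes agree -/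
def Dia (x : ch.WF ν κ Λ) : Prop := ∀ q, vl x (.inr (q, false)) = vl x (.inr (q, true))

theorem Dia.actF {x : ch.WF ν κ Λ} (h : Dia x) (hx : x ∈ ch.solF ν κ F) {s : ch.AF ν κ S}
    (hs : IsUnit s) : Dia (actF F.toWt s x) := fun q => Prod.ext rfl (funext fun j => by
  have a := fun n => fld_actF_p (F := F.toWt) hs (p_mem_crv hx.1.2.1 n)
    (((mem_solF.1 hx).2 _ (p_mem_crv hx.1.2.1 n)).1 j)
  exact (a _).trans ((congrArg (_ * ·) (congrFun (congrArg Prod.snd (h q)) j)).trans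
    (a (.inr (q, true))).symm))

theorem Dia.of_tendsto [l.NeBot] {x : α → ch.WF ν κ Λ} {x₀ : ch.WF ν κ Λ}
    (hx : ∀ᶠ a in l, x a ∈ ch.solF ν κ F ∧ Dia (x a)) (h0 : x₀ ∈ ch.solF ν κ F)
    (h : Tendsto x l (𝓝 x₀)) : Dia x₀ := fun q =>
  tendsto_nhds_unique ((tendsto_vl (hx.mono fun _ a => a.1) h0 h _).congr'
    (hx.mono fun _ a => a.2 q)) (tendsto_vl (hx.mono fun _ a => a.1) h0 h _)

end Ch

namespace Cpt

variable [DecidableEq ρ] {g : ℤ} {n₀ : ℕ} {d : ρ → ℤ} {k D : ℕ} (hF : F.Good) (hk : F.Big k)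
  (hD : F.BigD k D)
include hF hk hD

/-- compactness when all marked points are rescaled independently -/
theorem cpt_sol (hn : Fintype.card ν = n₀) (x : ℕ → (Λ → ℂ) × (F.chart g n₀ d k D).W ν)
    (l : Λ → ℂ) (hl : l ∈ F.B) (h1 : ∀ n, (x n).1 ∈ F.B)
    (h2 : ∀ n, (x n).2 ∈ sol _ ν (F.fib (x n).1)) (ht : Tendsto (fun n => (x n).1) atTop (𝓝 l)) :
    ∃ z ∈ sol _ ν (F.fib l), ∃ s : ℕ → ((F.chart g n₀ d k D).A ν)ˣ,
      MapClusterPt z atTop fun n => act (s n).1 (x n).2 := by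
  obtain ⟨s, a, -, z, b, -, c⟩ := exists_lim_pairs hF hk hD hn h2 h1 hl ht
    (U := Ultrafilter.of atTop) (Ultrafilter.of_le _) (κ := Empty) (e₁ := Empty.elim)
    (e₂ := Empty.elim) (by rintro (a | a) <;> exact a.elim) (fun _ q => q.elim) fun q => q.elim
  exact ⟨z, b, fun n => (a n).unit, mapClusterPt_iff_ultrafilter.2 ⟨_, Ultrafilter.of_le _, c⟩⟩

/-- **compactness of the moduli space** of one member of the family -/
theorem compactSpace_sol (hn : Fintype.card ν = n₀) {l : Λ → ℂ} (hl : l ∈ F.B) :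
    CompactSpace ((F.chart g n₀ d k D).Mod ν (F.fib l)) :=
  ⟨Quo.isCompact_of_seq fun z _ => by
    obtain ⟨x', a, s, b⟩ := cpt_sol hF hk hD hn (fun n => (l, (Quo.out (z n)).1)) l hl
      (fun _ => hl) (fun n => (Quo.out (z n)).2) tendsto_const_nhds
    obtain ⟨φ, c, e⟩ := b.tendsto_subseq
    exact ⟨φ, fun n => ⟨_, act_mem_sol (s _) (Quo.out (z (φ n))).2⟩, ⟨x', a⟩, c, fun n =>
      (Quot.sound ⟨_, (s _).isUnit, rfl⟩).symm.trans (Quot.out_eq _), trivial,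
      tendsto_subtype_rng.2 e⟩⟩

variable (hn : Fintype.card (Mk ν κ) = n₀) {Z : Set ((F.chart g n₀ d k D).WF ν κ Λ)}
  (hZ : Z ⊆ solF _ ν κ F) (inv : ∀ s, IsUnit s → ∀ x ∈ Z, actF F.toWt s x ∈ Z)
  (cl : ∀ x ∈ solF _ ν κ F, x ∈ closure Z → x ∈ Z) {T : Set (Λ → ℂ)} (hT : IsCompact T)
  (hB : T ⊆ F.B)
include hn hZ inv cl hT hB

/-- the sequential form of properness -/
theorem exists_seq {C : Set ((Λ → ℂ) × (J → ℂ))} (hC : IsCompact C) (h0 : C ⊆ F.cone)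
    {x : ℕ → Z} (h1 : ∀ n, (x n).1.1 ∈ T) (h2 : ∀ n q, ∃ τ : ρ → ℂ, IsUnit τ ∧ ∀ b,
      F.actT (1, τ) (vl (x n).1 (.inr (q, b))) ∈ C) : ∃ (φ : ℕ → ℕ) (y : ℕ → Z) (y' : Z),
      StrictMono φ ∧ (∀ n, ∃ s, IsUnit s ∧ (y n).1 = actF F.toWt s (x (φ n))) ∧ y'.1.1 ∈ T ∧
        Tendsto y atTop (𝓝 y') := by
  obtain ⟨l, a1, φ, a2, a3⟩ := hT.tendsto_subseq h1
  choose τ b1 b2 using h2
  obtain ⟨s, c1, x', c2, c3, ψ, c4, c5⟩ := exists_subseq hF hk hD hn (x := fun n => x (φ n))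
    (fun n => hZ (x _).2) (hB a1) a3 fun q =>
      ⟨fun n => τ (φ n) q, fun n => b1 _ _, C, h0, hC, fun n => b2 _ _⟩
  have e := fun n => inv _ (c1 (ψ n)).1 _ (x (φ (ψ n))).2
  exact ⟨φ ∘ ψ, fun n => ⟨_, e n⟩, ⟨x', cl _ c2 (mem_closure_of_tendsto c5 (.of_forall e))⟩,
    a2.comp c4, fun n => ⟨_, (c1 _).1, rfl⟩, c3 ▸ a1, tendsto_subtype_rng.2 c5⟩

/-- **properness** of the moduli space over the parameters and the values at persistent nodes -/
theorem isCompact_of {C : Set ((Λ → ℂ) × (J → ℂ))} (hC : IsCompact C) (h0 : C ⊆ F.cone)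
    {Y : Set (Quo (actF F.toWt) Z)} (hY : IsClosed Y) (h : ∀ z ∈ Y, ∃ x : Z, Quo.mk _ x = z ∧
      x.1.1 ∈ T ∧ ∀ q, ∃ τ : ρ → ℂ, IsUnit τ ∧ ∀ b, F.actT (1, τ) (vl x.1 (.inr (q, b))) ∈ C) :
    IsCompact Y := by
  refine Quo.isCompact_of_seq fun z hz => ?_
  choose x a b c using fun n => h _ (hz n)
  obtain ⟨φ, y, y', h1, h2, -, h4⟩ := exists_seq hF hk hD hn hZ inv cl hT hB hC h0 b c
  have e : ∀ n, Quo.mk _ (y n) = z (φ n) := fun n => (Quot.sound (h2 n)).symm.trans (a _)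
  exact ⟨φ, y, y', h1, e, hY.mem_of_tendsto ((continuous_quot_mk.tendsto y').comp h4)
    (.of_forall fun n => mem_of_eq_of_mem (e n) (hz _)), h4⟩

/-- the part of the moduli space over a compact set of parameters where the values at the branches
of the persistent nodes agree is compact -/
theorem isCompact_dia : IsCompact (Quo.mk (actF F.toWt) '' {x : Z | x.1.1 ∈ T ∧ Dia x.1}) := by
  refine Quo.isCompact_of_seq fun z hz => ?_
  choose x a b using hz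
  obtain ⟨C, h0, hC, c⟩ := hF.cpt T hB hT
  obtain ⟨φ, y, y', h1, h2, h3, h4⟩ := exists_seq hF hk hD hn hZ inv cl hT hB hC h0
    (fun n => (a n).1) fun n q => by
      obtain ⟨τ, d, e⟩ := c _ (vl_mem (hZ (x n).2) (.inr (q, true))) (a n).1
      exact ⟨τ, d, fun b => by cases b <;> simpa only [(a n).2 q] using e⟩
  refine ⟨φ, y, y', h1, fun n => (Quot.sound (h2 n)).symm.trans (b _), ⟨y', ⟨h3,
    Dia.of_tendsto (.of_forall fun n => ⟨hZ (y n).2, ?_⟩) (hZ y'.2)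
      (tendsto_subtype_rng.1 h4)⟩, rfl⟩, h4⟩
  obtain ⟨s, d, e⟩ := h2 n
  exact e ▸ (a _).2.actF (hZ (x _).2) d

theorem isCompact_dia' : IsCompact {z : Quo (actF F.toWt) Z |
    (∃ τ, IsUnit τ ∧ F.actL τ (Quo.out z).1.1 ∈ T) ∧ Dia (Quo.out z).1} := by
  convert isCompact_dia hF hk hD hn hZ inv cl hT hB using 1
  have := isActF_of inv
  refine Set.ext fun z => ⟨fun ⟨⟨τ, a, b⟩, c⟩ => ?_, ?_⟩
  · have e : IsUnit ((τ, 1) : (F.chart g n₀ d k D).AF ν κ S) := Prod.isUnit_iff.2 ⟨a, isUnit_one⟩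
    exact ⟨⟨_, inv _ e _ (Quo.out z).2⟩, ⟨b, c.actF (hZ (Quo.out z).2) e⟩,
      (Quot.sound ⟨_, e, rfl⟩).symm.trans (Quot.out_eq z)⟩
  · rintro ⟨x, ⟨a, b⟩, rfl⟩
    obtain ⟨s, e⟩ := Holo.Sp.exists_smul_out (act := actF F.toWt) x
    have e' : actF F.toWt s x.1 = (Quo.out (Quo.mk (actF F.toWt) x)).1 := congrArg Subtype.val e
    rw [mem_ofPred_eq, ← e']
    refine ⟨⟨(s⁻¹).1.1, isUnit_S s⁻¹.isUnit, ?_⟩, b.actF (hZ x.2) s.isUnit⟩
    rwa [← actF_fst, ← actF_mul, Units.inv_mul, actF_one]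

/-- **compactness of the moduli space** -/
theorem compactSpace (h : ∀ x ∈ Z, Dia x) (h' : ∀ l ∈ F.B, ∃ τ, IsUnit τ ∧ F.actL τ l ∈ T) :
    CompactSpace (Quo (actF F.toWt) Z) :=
  ⟨by
    convert isCompact_dia' hF hk hD hn hZ inv cl hT hB using 1
    exact (eq_univ_of_forall fun z => by
      exact ⟨h' _ (hZ (Quo.out z).2).1.1, h _ (Quo.out z).2⟩).symm⟩

omit hZ inv cl

omit hk hD hn hT hB in
theorem cyc_inv {ι : Type} [Fintype ι] [DecidableEq ι] {ch : Ch ι J} (u : ν → J → ℕ) :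
    ∀ s, IsUnit s → ∀ x ∈ ch.solF ν κ F ∩ ch.cyc κ F u,
      actF F.toWt s x ∈ ch.solF ν κ F ∩ ch.cyc κ F u := fun _ a _ b =>
  ⟨actF_mem_solF hF.toInv a b.1, actF_mem_cyc hF.toInv a b.2⟩

omit hF hk hD hn hT hB in
theorem cyc_cl {ι : Type} [Fintype ι] [DecidableEq ι] {ch : Ch ι J} (u : ν → J → ℕ) :
    ∀ x ∈ ch.solF ν κ F, x ∈ closure (ch.solF ν κ F ∩ ch.cyc κ F u) →
      x ∈ ch.solF ν κ F ∩ ch.cyc κ F u := fun _ a b =>
  ⟨a, closure_minimal (fun _ c => c.2.1) isClosed_closure b, a.1⟩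

/-- the diagonal part of `ModS` over a compact set of parameters is compact -/
theorem isCompact_mod (u : ν → J → ℕ) :
    IsCompact {z : ModS F ((F.chart g n₀ d k D).cyc κ F u) |
      (∃ τ, IsUnit τ ∧ F.actL τ (Quo.out z).1.1 ∈ T) ∧ Dia (Quo.out z).1} :=
  isCompact_dia' hF hk hD hn inter_subset_left (cyc_inv hF u) (cyc_cl u) hT hB

theorem compactSpace_mod [IsEmpty κ] (h : ∀ l ∈ F.B, ∃ τ, IsUnit τ ∧ F.actL τ l ∈ T)
    (u : ν → J → ℕ) : CompactSpace (ModS F ((F.chart g n₀ d k D).cyc κ F u)) :=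
  compactSpace hF hk hD hn inter_subset_left (cyc_inv hF u) (cyc_cl u) hT hB
    (fun _ _ q => isEmptyElim q) h

end Cpt

end Vale.Agent.P269
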